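import Crest.Agent.AD.E3Defs

set_option autoImplicit false
open Crest.Quantum Crest.MathPhysics.AmpDamp
open scoped ComplexOrder

namespace Crest.Agent.AD

variable {e R : Type} [Fintype e] [DecidableEq e] [Fintype R] [DecidableEq R]

theorem bm_eq_fromBlocks (A B C D : Matrix e e ℂ) :
    bm A B C D = (Matrix.fromBlocks A B C D).submatrix (Equiv.boolProdEquivSum e)
      (Equiv.boolProdEquivSum e) := by
  ext ⟨i, x⟩ ⟨j, y⟩
  cases i <;> cases j <;> rfl

theorem det_bm (A B C D : Matrix e e ℂ) (hA : IsUnit A.det) :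
    (bm A B C D).det = A.det * (D - C * A⁻¹ * B).det := by
  rw [bm_eq_fromBlocks, Matrix.det_submatrix_equiv_self]
  haveI : Invertible A := Matrix.invertibleOfIsUnitDet A hA
  rw [Matrix.det_fromBlocks₁₁, Matrix.invOf_eq_nonsing_inv]

theorem posDef_shift {A : Matrix e e ℂ} (hA : A.PosSemidef) {t α : ℝ} (ht : 0 < t) (hα : 0 ≤ α) :
    ((t : ℂ) • (1 : Matrix e e ℂ) + (α : ℂ) • A).PosDef := by
  have h1 : ((t : ℂ) • (1 : Matrix e e ℂ)).PosDef :=
    Matrix.PosDef.one.smul (by exact_mod_cast ht)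
  have h2 : ((α : ℂ) • A).PosSemidef := hA.smul (by exact_mod_cast hα)
  exact h1.add_posSemidef h2

theorem woodbury (A : Matrix e R ℂ) {t α : ℝ} (ht : 0 < t) (hα : 0 ≤ α) :
    (α : ℂ) • (A.conjTranspose * ((t : ℂ) • (1 : Matrix e e ℂ) + (α : ℂ) • (A * A.conjTranspose))⁻¹ * A)
      = 1 - (t : ℂ) • ((t : ℂ) • (1 : Matrix R R ℂ) + (α : ℂ) • (A.conjTranspose * A))⁻¹ := by
  set P := (t : ℂ) • (1 : Matrix e e ℂ) + (α : ℂ) • (A * A.conjTranspose) with hP
  set Q := (t : ℂ) • (1 : Matrix R R ℂ) + (α : ℂ) • (A.conjTranspose * A) with hQ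
  have hPd : IsUnit P.det := by
    have := posDef_shift (Matrix.posSemidef_self_mul_conjTranspose A) ht hα
    exact (Matrix.isUnit_iff_isUnit_det _).mp this.isUnit
  have hQd : IsUnit Q.det := by
    have := posDef_shift (Matrix.posSemidef_conjTranspose_mul_self A) ht hα
    exact (Matrix.isUnit_iff_isUnit_det _).mp this.isUnit
  have h1 : Q * A.conjTranspose = A.conjTranspose * P := by
    rw [hP, hQ, Matrix.add_mul, Matrix.mul_add]
    simp [Matrix.mul_assoc]
  have h2 : Q * ((α : ℂ) • (A.conjTranspose * P⁻¹ * A)) = Q - (t : ℂ) • 1 := by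
    rw [Matrix.mul_smul, ← Matrix.mul_assoc, ← Matrix.mul_assoc, h1, Matrix.mul_assoc A.conjTranspose P,
      Matrix.mul_nonsing_inv _ hPd, Matrix.mul_one, hQ]
    simp
  have h3 : (α : ℂ) • (A.conjTranspose * P⁻¹ * A) = Q⁻¹ * (Q - (t : ℂ) • 1) := by
    rw [← h2, ← Matrix.mul_assoc, Matrix.nonsing_inv_mul _ hQd, Matrix.one_mul]
  rw [h3, Matrix.mul_sub, Matrix.nonsing_inv_mul _ hQd]
  simp

/-- the determinant identity (D). -/
theorem det_M3_id {σ : Matrix (Bool × e) (Bool × e) ℂ} (A B : Matrix e R ℂ)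
    (h00 : block σ false false = A * A.conjTranspose)
    (h01 : block σ false true = A * B.conjTranspose)
    (h10 : block σ true false = B * A.conjTranspose)
    (h11 : block σ true true = B * B.conjTranspose)
    {t α β κ : ℝ} (ht : 0 < t) (hα : 0 ≤ α) (hβ : 0 ≤ β) :
    ((t : ℂ) • (1 : Matrix (Bool × e) (Bool × e) ℂ) + M3 σ α β κ).det =
      ((t : ℂ) • (1 : Matrix e e ℂ) + (α : ℂ) • (A * A.conjTranspose)).det *
      ((t : ℂ) • (1 : Matrix e e ℂ) + (κ : ℂ) • (A * A.conjTranspose) + ((t * β : ℝ) : ℂ) •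
        (B * ((t : ℂ) • (1 : Matrix R R ℂ) + (α : ℂ) • (A.conjTranspose * A))⁻¹ * B.conjTranspose)).det := by
  have hM : (t : ℂ) • (1 : Matrix (Bool × e) (Bool × e) ℂ) + M3 σ α β κ =
      bm ((t : ℂ) • 1 + (α : ℂ) • (A * A.conjTranspose)) ((Real.sqrt (α * β) : ℂ) • (A * B.conjTranspose))
        ((Real.sqrt (α * β) : ℂ) • (B * A.conjTranspose))
        ((t : ℂ) • 1 + ((β : ℂ) • (B * B.conjTranspose) + (κ : ℂ) • (A * A.conjTranspose))) := by
    unfold M3
    rw [h00, h01, h10, h11]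
    ext ⟨i, x⟩ ⟨j, y⟩
    cases i <;> cases j <;> simp [bm, Matrix.one_apply]
  set P := (t : ℂ) • (1 : Matrix e e ℂ) + (α : ℂ) • (A * A.conjTranspose) with hP
  have hPd : IsUnit P.det := by
    have := posDef_shift (Matrix.posSemidef_self_mul_conjTranspose A) ht hα
    exact (Matrix.isUnit_iff_isUnit_det _).mp this.isUnit
  rw [hM, det_bm _ _ _ _ hPd]
  congr 2
  have hw := woodbury A ht hα
  rw [← hP] at hw
  set G := ((t : ℂ) • (1 : Matrix R R ℂ) + (α : ℂ) • (A.conjTranspose * A))⁻¹ with hG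
  have h5 : ((Real.sqrt (α * β) : ℂ) • (B * A.conjTranspose)) * P⁻¹ * ((Real.sqrt (α * β) : ℂ) • (A * B.conjTranspose))
      = (β : ℂ) • (B * ((α : ℂ) • (A.conjTranspose * P⁻¹ * A)) * B.conjTranspose) := by
    simp only [Matrix.smul_mul, Matrix.mul_smul, smul_smul, Matrix.mul_assoc]
    congr 1
    rw [← Complex.ofReal_mul, Real.mul_self_sqrt (mul_nonneg hα hβ)]
    push_cast; ring
  rw [h5, hw]
  simp only [Matrix.mul_sub, Matrix.sub_mul, Matrix.mul_one, Matrix.mul_smul, Matrix.smul_mul, smul_sub,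
    smul_smul]
  have : ((t * β : ℝ) : ℂ) = (β : ℂ) * (t : ℂ) := by push_cast; ring
  rw [this]
  abel

end Crest.Agent.AD
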